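import Mathlib
import Vale.Agent.P110.Core

namespace Vale.Agent.Results.P110.FlatnessTradeoff

/-- If a Littlewood polynomial `P` of length `N` satisfies `m ≤ |P(z)|^2 ≤ M` on the unit circle,
then `(M - N) (N - m) ≥ 2 ⌊N/2⌋`. -/
theorem result (N : ℕ) (ε : Fin N → ℤ) (hε : ∀ k, ε k = 1 ∨ ε k = -1) (m M : ℝ)
    (h : ∀ z : ℂ, ‖z‖ = 1 → m ≤ ‖∑ k : Fin N, ((ε k : ℤ) : ℂ) * z ^ (k : ℕ)‖ ^ 2 ∧
      ‖∑ k : Fin N, ((ε k : ℤ) : ℂ) * z ^ (k : ℕ)‖ ^ 2 ≤ M) :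
    2 * ((N / 2 : ℕ) : ℝ) ≤ (M - N) * (N - m) :=
  Vale.Agent.P110.tradeoff_fin N ε hε m M h

end Vale.Agent.Results.P110.FlatnessTradeoff
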