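import Mathlib
import Vale.Agent.P110.Core

namespace Vale.Agent.Results.P110.UltraflatRate

/-- Every Littlewood polynomial `P` of length `N ≥ 1` has a point `z` on the unit circle with
`| |P(z)| / √N - 1 | ≥ √(N-1) / (2N)`. -/
theorem result (N : ℕ) (hN : 1 ≤ N) (ε : Fin N → ℤ) (hε : ∀ k, ε k = 1 ∨ ε k = -1) :
    ∃ z : ℂ, ‖z‖ = 1 ∧ Real.sqrt (N - 1) / (2 * N) ≤
      |‖∑ k : Fin N, ((ε k : ℤ) : ℂ) * z ^ (k : ℕ)‖ / Real.sqrt N - 1| :=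
  Vale.Agent.P110.rate_fin N hN ε hε

end Vale.Agent.Results.P110.UltraflatRate
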